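import Vale.Agent.P240.R2.H490.P5M

/-!
The determinant of `B ⊗ 1 + 1 ⊗ B'` for two traceless matrices of size two on a tensor power
(`StmtDet6` of `P5M`).
-/

set_option autoImplicit false
set_option linter.all false

namespace Vale.Agent.P240.R2.H953

open Subgroup Matrix Vale.Agent.P240 Vale.Agent.P240.H195 Vale.Agent.P240.R2.H487
open Vale.Agent.P240.R2.H490
open scoped Kronecker

lemma det4 {F : Type*} [Field F] (B B' : M2 F) (hB : B.trace = 0) (hB' : B'.trace = 0) :
    ((B ⊗ₖ (1 : M2 F)) + ((1 : M2 F) ⊗ₖ B')).det = (B.det - B'.det) ^ 2 := by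
  have e1 : B 1 1 = - B 0 0 := by
    rw [Matrix.trace_fin_two] at hB
    linear_combination hB
  have e2 : B' 1 1 = - B' 0 0 := by
    rw [Matrix.trace_fin_two] at hB'
    linear_combination hB'
  have h : ((B ⊗ₖ (1 : M2 F)) + ((1 : M2 F) ⊗ₖ B')) =
      (!![B 0 0 + B' 0 0, B' 0 1, B 0 1, 0;
         B' 1 0, B 0 0 + B' 1 1, 0, B 0 1;
         B 1 0, 0, B 1 1 + B' 0 0, B' 0 1;
         0, B 1 0, B' 1 0, B 1 1 + B' 1 1]).submatrix finProdFinEquiv finProdFinEquiv := by
    ext ⟨i, k⟩ ⟨i', k'⟩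
    fin_cases i <;> fin_cases k <;> fin_cases i' <;> fin_cases k' <;>
      simp [finProdFinEquiv, Matrix.one_apply, Matrix.kroneckerMap_apply]
  rw [h, Matrix.det_submatrix_equiv_self]
  rw [Matrix.det_fin_two, Matrix.det_fin_two, e1, e2]
  rw [Matrix.det_succ_row_zero]
  simp [Fin.sum_univ_succ, Matrix.det_fin_three, Fin.succAbove]
  ring
section
variable {F : Type*} [Field F] {a m : ℕ} (σ : Fin (m + 1) ≃ (Fin a → Fin 2))

/-- splitting off two factors -/
def E2 {j j' : Fin a} (h : j ≠ j') :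
    (Fin a → Fin 2) ≃ (Fin 2 × Fin 2) × ({l : Fin a // l ≠ j ∧ l ≠ j'} → Fin 2) where
  toFun f := ((f j, f j'), fun l => f l.1)
  invFun p := fun l => if h1 : l = j then p.1.1 else if h2 : l = j' then p.1.2 else p.2 ⟨l, h1, h2⟩
  left_inv f := by
    funext l
    by_cases h1 : l = j
    · subst h1
      simp
    · by_cases h2 : l = j'
      · subst h2
        simp [h1]
      · simp [h1, h2]
  right_inv p := by
    obtain ⟨⟨x, y⟩, g⟩ := p
    refine Prod.ext (Prod.ext ?_ ?_) ?_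
    · simp
    · simp [h.symm]
    · funext l
      obtain ⟨l, h1, h2⟩ := l
      simp [h1, h2]

lemma TT_add_eq {j j' : Fin a} (h : j ≠ j') (B B' : M2 F) :
    TT σ j B + TT σ j' B' =
      (((B ⊗ₖ (1 : M2 F)) + ((1 : M2 F) ⊗ₖ B')) ⊗ₖ
        (1 : Matrix ({l : Fin a // l ≠ j ∧ l ≠ j'} → Fin 2)
          ({l : Fin a // l ≠ j ∧ l ≠ j'} → Fin 2) F)).submatrix (σ.trans (E2 h)) (σ.trans (E2 h)) := by
  ext i k
  rw [Matrix.add_apply, TT_apply, TT_apply, Matrix.submatrix_apply, Matrix.kroneckerMap_apply,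
    Matrix.add_apply, Matrix.kroneckerMap_apply, Matrix.kroneckerMap_apply]
  simp only [Matrix.one_apply]
  show _ = (B (σ i j) (σ k j) * (if σ i j' = σ k j' then 1 else 0) +
    (if σ i j = σ k j then 1 else 0) * B' (σ i j') (σ k j')) *
    (if (fun l : {l : Fin a // l ≠ j ∧ l ≠ j'} => σ i l.1) = (fun l => σ k l.1) then 1 else 0)
  by_cases hr : ∀ l, l ≠ j → l ≠ j' → σ i l = σ k l
  · have h3 : (fun l : {l : Fin a // l ≠ j ∧ l ≠ j'} => σ i l.1) = (fun l => σ k l.1) :=
      funext fun l => hr l.1 l.2.1 l.2.2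
    rw [if_pos h3, mul_one]
    congr 1
    · congr 1
      refine if_congr ⟨fun h4 => h4 j' h.symm, fun h4 l hl => ?_⟩ rfl rfl
      by_cases hl' : l = j'
      · rw [hl']; exact h4
      · exact hr l hl hl'
    · rw [mul_comm]
      congr 1
      refine if_congr ⟨fun h4 => h4 j h, fun h4 l hl => ?_⟩ rfl rfl
      by_cases hl' : l = j
      · rw [hl']; exact h4
      · exact hr l hl' hl
  · have h3 : ¬ (fun l : {l : Fin a // l ≠ j ∧ l ≠ j'} => σ i l.1) = (fun l => σ k l.1) :=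
      fun h4 => hr fun l h5 h6 => congrFun h4 ⟨l, h5, h6⟩
    rw [if_neg h3, if_neg (fun h4 => hr fun l h5 _ => h4 l h5),
      if_neg (fun h4 => hr fun l _ h6 => h4 l h6), mul_zero, mul_zero, mul_zero, add_zero]

lemma TT_add_det {j j' : Fin a} (h : j ≠ j') (B B' : M2 F) (hB : B.trace = 0)
    (hB' : B'.trace = 0) :
    (TT σ j B + TT σ j' B').det = (B.det - B'.det) ^ 2 ^ (a - 1) := by
  have hc : Fintype.card {l : Fin a // l ≠ j ∧ l ≠ j'} = a - 2 := by
    rw [Fintype.card_subtype]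
    have h1 : (Finset.univ.filter fun l : Fin a => l ≠ j ∧ l ≠ j') = Finset.univ \ {j, j'} := by
      ext l
      simp
    rw [h1, Finset.card_univ_diff, Fintype.card_fin, Finset.card_pair h]
  have ha : 2 ≤ a := by
    have h1 : ({j, j'} : Finset (Fin a)).card ≤ Fintype.card (Fin a) := Finset.card_le_univ _
    rwa [Finset.card_pair h, Fintype.card_fin] at h1
  rw [TT_add_eq σ h, Matrix.det_submatrix_equiv_self, Matrix.det_kronecker, Matrix.det_one,
    one_pow, mul_one, det4 B B' hB hB', ← pow_mul, Fintype.card_fun, Fintype.card_fin, hc]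
  congr 1
  rw [← pow_succ']
  congr 1
  omega

end

theorem stmtDet6 : StmtDet6 := fun F _ a m ι σ j j' h B B' hB hB' =>
  TT_add_det σ h B B' hB hB'

end Vale.Agent.P240.R2.H953
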